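import Vale.Agent.P224.PO.SubO

/-!
Certificate D: the elements of the blocks (vector, outer variable, inner monomial).
-/

namespace Vale.Agent.P224.R2.H797.D

open Vale.Agent.P224.POS Vale.Agent.P224.PO

noncomputable section

/-- elements of block 0 -/
def els0 : List (Nat × Nat × PE) := [
  (1, 0, .pow (.v 0) 2),
  (1, 0, .pow (.v 0) 3),
  (1, 0, .pow (.v 0) 4),
  (1, 0, .mul (.pow (.v 0) 2) (.v 3)),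
  (1, 0, .pow (.v 2) 2),
  (1, 0, .pow (.v 1) 2),
  (1, 4, .v 1),
  (1, 5, .v 2),
  (1, 6, .pow (.v 0) 2),
  (2, 0, .mul (.v 1) (.v 2)),
  (2, 4, .v 2),
  (2, 5, .v 1),
  (2, 7, .v 0),
  (2, 7, .pow (.v 0) 2),
  (3, 0, .v 1),
  (3, 0, .mul (.v 0) (.v 1)),
  (3, 0, .mul (.pow (.v 0) 2) (.v 1)),
  (3, 0, .mul (.v 1) (.v 3)),
  (3, 4, .pow (.v 0) 2),
  (3, 6, .v 1),
  (3, 7, .v 2),
  (4, 0, .v 2),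
  (4, 0, .mul (.v 0) (.v 2)),
  (4, 0, .mul (.pow (.v 0) 2) (.v 2)),
  (4, 0, .mul (.v 2) (.v 3)),
  (4, 5, .v 0),
  (4, 5, .pow (.v 0) 2),
  (4, 6, .v 2),
  (4, 7, .v 1),
  (5, 0, .v 1),
  (5, 0, .mul (.v 0) (.v 1)),
  (5, 0, .mul (.pow (.v 0) 2) (.v 1)),
  (5, 0, .mul (.v 1) (.v 3))]

/-- elements of block 1 -/
def els1 : List (Nat × Nat × PE) := [
  (1, 0, .v 1),
  (1, 0, .mul (.v 0) (.v 1)),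
  (1, 0, .mul (.pow (.v 0) 2) (.v 1)),
  (1, 0, .mul (.v 1) (.v 3)),
  (1, 4, .pow (.v 0) 2),
  (1, 6, .v 1),
  (1, 7, .v 2),
  (2, 0, .v 2),
  (2, 0, .mul (.v 0) (.v 2)),
  (2, 0, .mul (.pow (.v 0) 2) (.v 2)),
  (2, 0, .mul (.v 2) (.v 3)),
  (2, 5, .c 1),
  (2, 5, .v 0),
  (2, 5, .pow (.v 0) 2),
  (2, 5, .v 3),
  (2, 6, .v 2),
  (2, 7, .v 1),
  (3, 0, .pow (.v 0) 2),
  (3, 0, .pow (.v 0) 3),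
  (3, 0, .pow (.v 0) 4),
  (3, 0, .mul (.pow (.v 0) 2) (.v 3)),
  (3, 0, .pow (.v 2) 2),
  (3, 0, .pow (.v 1) 2),
  (3, 4, .v 1),
  (3, 5, .v 2),
  (3, 6, .pow (.v 0) 2),
  (4, 0, .mul (.v 1) (.v 2)),
  (4, 4, .v 2),
  (4, 5, .v 1),
  (4, 7, .pow (.v 0) 2),
  (5, 0, .pow (.v 0) 2),
  (5, 0, .pow (.v 0) 3),
  (5, 0, .pow (.v 0) 4),
  (5, 0, .mul (.pow (.v 0) 2) (.v 3)),
  (5, 0, .pow (.v 2) 2),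
  (5, 0, .pow (.v 1) 2)]

/-- elements of block 2 -/
def els2 : List (Nat × Nat × PE) := [
  (1, 0, .mul (.v 1) (.v 2)),
  (1, 4, .v 2),
  (1, 5, .v 1),
  (1, 7, .pow (.v 0) 2),
  (2, 0, .v 0),
  (2, 0, .pow (.v 0) 2),
  (2, 0, .pow (.v 0) 3),
  (2, 0, .pow (.v 0) 4),
  (2, 0, .mul (.v 0) (.v 3)),
  (2, 0, .mul (.pow (.v 0) 2) (.v 3)),
  (2, 0, .pow (.v 2) 2),
  (2, 0, .pow (.v 1) 2),
  (2, 4, .v 1),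
  (2, 5, .v 2),
  (2, 6, .v 0),
  (2, 6, .pow (.v 0) 2),
  (3, 0, .v 2),
  (3, 0, .mul (.v 0) (.v 2)),
  (3, 0, .mul (.pow (.v 0) 2) (.v 2)),
  (3, 0, .mul (.v 2) (.v 3)),
  (3, 5, .v 0),
  (3, 5, .pow (.v 0) 2),
  (3, 6, .v 2),
  (3, 7, .v 1),
  (4, 0, .v 1),
  (4, 0, .mul (.v 0) (.v 1)),
  (4, 0, .mul (.pow (.v 0) 2) (.v 1)),
  (4, 0, .mul (.v 1) (.v 3)),
  (4, 4, .pow (.v 0) 2),
  (4, 6, .v 1),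
  (4, 7, .v 2),
  (5, 0, .v 2),
  (5, 0, .mul (.v 0) (.v 2)),
  (5, 0, .mul (.pow (.v 0) 2) (.v 2)),
  (5, 0, .mul (.v 2) (.v 3))]

/-- elements of block 3 -/
def els3 : List (Nat × Nat × PE) := [
  (1, 0, .v 2),
  (1, 0, .mul (.v 0) (.v 2)),
  (1, 0, .mul (.pow (.v 0) 2) (.v 2)),
  (1, 0, .mul (.v 2) (.v 3)),
  (1, 5, .v 0),
  (1, 5, .pow (.v 0) 2),
  (1, 6, .v 2),
  (1, 7, .v 1),
  (2, 0, .v 1),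
  (2, 0, .mul (.v 0) (.v 1)),
  (2, 0, .mul (.pow (.v 0) 2) (.v 1)),
  (2, 0, .mul (.v 1) (.v 3)),
  (2, 4, .v 0),
  (2, 4, .pow (.v 0) 2),
  (2, 6, .v 1),
  (2, 7, .v 2),
  (3, 0, .mul (.v 1) (.v 2)),
  (3, 4, .v 2),
  (3, 5, .v 1),
  (3, 7, .pow (.v 0) 2),
  (4, 0, .pow (.v 0) 2),
  (4, 0, .pow (.v 0) 3),
  (4, 0, .pow (.v 0) 4),
  (4, 0, .mul (.pow (.v 0) 2) (.v 3)),
  (4, 0, .pow (.v 2) 2),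
  (4, 0, .pow (.v 1) 2),
  (4, 4, .v 1),
  (4, 5, .v 2),
  (4, 6, .pow (.v 0) 2),
  (5, 0, .mul (.v 1) (.v 2))]

end

end Vale.Agent.P224.R2.H797.D
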